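import Vale.Agent.Lib.P002.G1Defs

/-!
Pool job P002-G1-A (copy by helper17): the explicit LU factorization of a rank one perturbation
of the identity over a commutative ring (`g1_rank_one_lu`), and the induction step that extends
an LU factorization of `U' * L'` to the bordered product of block matrices (`g1_step`).
-/

namespace Vale.Agent.Lib.P002.H17

open Matrix
open Vale.Agent.Lib.P002

theorem g1_rank_one_lu {R : Type*} [CommRing R] : ∀ (k : ℕ) (s : ℕ → Rˣ) (ξ η : Fin k → R),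
    (∀ i : Fin k, ξ i * η i = (s i.val : R) - (s (i.val + 1) : R)) →
    ∃ Λ Bq : Matrix (Fin k) (Fin k) R, (∀ i j, i < j → Λ i j = 0) ∧ (∀ i, Λ i i = 1) ∧
      (∀ i j, j < i → Bq i j = 0) ∧
      (∀ i, Bq i i = ((s (i.val + 1) * (s i.val)⁻¹ : Rˣ) : R)) ∧
      Λ * Bq = 1 - (((s 0)⁻¹ : Rˣ) : R) • Matrix.vecMulVec η ξ := by
  intro k
  induction k with
  | zero =>
    intro s ξ η _
    refine ⟨1, 1, fun i => i.elim0, fun i => i.elim0, fun i => i.elim0, fun i => i.elim0, ?_⟩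
    ext i
    exact i.elim0
  | succ k ih =>
    intro s ξ η hs
    obtain ⟨Λ', Bq', hΛ, hΛ1, hB, hBd, hprod⟩ := ih (fun t => s (t + 1)) (fun i => ξ i.succ)
      (fun i => η i.succ) (fun i => hs i.succ)
    have h0 : ξ 0 * η 0 = (s 0 : R) - (s 1 : R) := hs 0
    have u0 : (s 0 : R) * ((s 0)⁻¹ : Rˣ) = 1 := Units.mul_inv (s 0)
    have u1 : (s 1 : R) * ((s 1)⁻¹ : Rˣ) = 1 := Units.mul_inv (s 1)
    refine ⟨bmat 1 0 (fun i => -(ξ 0 * ((s 1)⁻¹ : Rˣ)) * η i.succ) Λ',
      bmat ((s 1 * (s 0)⁻¹ : Rˣ) : R) (fun j => -(η 0 * ((s 0)⁻¹ : Rˣ)) * ξ j.succ) 0 Bq',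
      ?_, ?_, ?_, ?_, ?_⟩
    · intro i j
      refine Fin.cases ?_ (fun i => ?_) i <;> refine Fin.cases ?_ (fun j => ?_) j
      · intro h
        exact absurd h (lt_irrefl _)
      · intro _
        rfl
      · intro h
        exact absurd h (Fin.not_lt_zero _)
      · intro h
        rw [bmat_succ_succ]
        exact hΛ i j (Fin.succ_lt_succ_iff.mp h)
    · intro i
      refine Fin.cases ?_ (fun i => ?_) i
      · rfl
      · rw [bmat_succ_succ]
        exact hΛ1 i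
    · intro i j
      refine Fin.cases ?_ (fun i => ?_) i <;> refine Fin.cases ?_ (fun j => ?_) j
      · intro h
        exact absurd h (lt_irrefl _)
      · intro h
        exact absurd h (Fin.not_lt_zero _)
      · intro _
        rfl
      · intro h
        rw [bmat_succ_succ]
        exact hB i j (Fin.succ_lt_succ_iff.mp h)
    · intro i
      refine Fin.cases ?_ (fun i => ?_) i
      · rfl
      · rw [bmat_succ_succ]
        exact hBd i
    · rw [bmat_mul]
      ext i j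
      refine Fin.cases ?_ (fun i => ?_) i <;> refine Fin.cases ?_ (fun j => ?_) j
      · simp only [bmat_zero_zero, Matrix.sub_apply, Matrix.one_apply_eq, Matrix.smul_apply,
          vecMulVec_apply, smul_eq_mul, zero_dotProduct, add_zero, one_mul]
        rw [Units.val_mul]
        linear_combination (((s 0)⁻¹ : Rˣ) : R) * h0 + u0
      · simp only [bmat_zero_succ, Matrix.sub_apply, Matrix.smul_apply,
          vecMulVec_apply, smul_eq_mul, one_smul, zero_vecMul, add_zero]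
        rw [Matrix.one_apply_ne (Fin.succ_ne_zero j).symm]
        ring
      · simp only [bmat_succ_zero, Matrix.sub_apply, Matrix.smul_apply,
          vecMulVec_apply, smul_eq_mul, mulVec_zero, add_zero, Pi.smul_apply]
        rw [Matrix.one_apply_ne (Fin.succ_ne_zero i), Units.val_mul]
        linear_combination (-(((s 0)⁻¹ : Rˣ) : R) * ξ 0 * η i.succ) * u1
      · simp only [bmat_succ_succ, Matrix.sub_apply, Matrix.smul_apply, Matrix.add_apply,
          vecMulVec_apply, smul_eq_mul]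
        rw [hprod]
        simp only [Matrix.sub_apply, Matrix.smul_apply, vecMulVec_apply, smul_eq_mul]
        have e : (1 : Matrix (Fin (k + 1)) (Fin (k + 1)) R) i.succ j.succ
            = (1 : Matrix (Fin k) (Fin k) R) i j := by
          simp [Matrix.one_apply]
        rw [e]
        linear_combination (((s 1)⁻¹ : Rˣ) : R) * (((s 0)⁻¹ : Rˣ) : R) * η i.succ * ξ j.succ * h0
          - (((s 0)⁻¹ : Rˣ) : R) * η i.succ * ξ j.succ * u1
          + (((s 1)⁻¹ : Rˣ) : R) * η i.succ * ξ j.succ * u0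

theorem g1_step {R : Type*} [CommRing R] (k : ℕ) (U' L' Ui Li l' b' : Matrix (Fin k) (Fin k) R)
    (hUi : U' * Ui = 1) (hLi : L' * Li = 1)
    (hl : ∀ i j, i < j → l' i j = 0) (hl1 : ∀ i, l' i i = 1) (hb : ∀ i j, j < i → b' i j = 0)
    (hq : U' * L' = l' * b')
    (a b : R) (s : ℕ → Rˣ) (ξ η : Fin k → R)
    (hs : ∀ i : Fin k, ξ i * η i = (s i.val : R) - (s (i.val + 1) : R))
    (hsk : (s k : R) = a * b) :
    ∃ (ρ c : Fin k → R) (l bt : Matrix (Fin (k + 1)) (Fin (k + 1)) R),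
      ρ ᵥ* L' = ξ ᵥ* b' ∧ U' *ᵥ c = l' *ᵥ η ∧
      (∀ i j, i < j → l i j = 0) ∧ (∀ i, l i i = 1) ∧ (∀ i j, j < i → bt i j = 0) ∧
      bt 0 0 = (s 0 : R) ∧
      (∀ i : Fin k, bt i.succ i.succ = ((s (i.val + 1) * (s i.val)⁻¹ : Rˣ) : R) * b' i i) ∧
      bmat a ρ 0 U' * bmat b 0 c L' = l * bt := by
  have hLi' : Li * L' = 1 := mul_eq_one_comm.mp hLi
  obtain ⟨Λ, Bq, hΛ, hΛ1, hB, hBd, hprod⟩ := g1_rank_one_lu k s ξ η hs
  have hX : l' * (b' * Li * Ui) = 1 := by
    calc l' * (b' * Li * Ui) = (l' * b') * Li * Ui := by simp only [Matrix.mul_assoc]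
      _ = U' * (L' * Li) * Ui := by
          rw [← hq]
          simp only [Matrix.mul_assoc]
      _ = 1 := by rw [hLi, Matrix.mul_one, hUi]
  have hY : b' * (Li * (Ui * l')) = 1 := by
    have h := mul_eq_one_comm.mp hX
    simp only [Matrix.mul_assoc] at h
    exact h
  have hdot : ((ξ ᵥ* b') ᵥ* Li) ⬝ᵥ (Ui *ᵥ (l' *ᵥ η)) = (s 0 : R) - a * b := by
    rw [Matrix.dotProduct_mulVec, Matrix.dotProduct_mulVec, Matrix.vecMul_vecMul,
      Matrix.vecMul_vecMul, Matrix.vecMul_vecMul, hY, Matrix.vecMul_one, ← hsk]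
    unfold dotProduct
    rw [Finset.sum_congr rfl (fun i _ => hs i),
      Fin.sum_univ_eq_sum_range (fun t => (s t : R) - (s (t + 1) : R)) k]
    exact Finset.sum_range_sub' (fun t => (s t : R)) k
  refine ⟨(ξ ᵥ* b') ᵥ* Li, Ui *ᵥ (l' *ᵥ η),
    bmat 1 0 ((((s 0)⁻¹ : Rˣ) : R) • (l' *ᵥ η)) (l' * Λ),
    bmat (s 0 : R) (ξ ᵥ* b') 0 (Bq * b'), ?_, ?_, ?_, ?_, ?_, ?_, ?_, ?_⟩
  · rw [Matrix.vecMul_vecMul, hLi', Matrix.vecMul_one]
  · rw [Matrix.mulVec_mulVec, hUi, Matrix.one_mulVec]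
  · intro i j
    refine Fin.cases ?_ (fun i => ?_) i <;> refine Fin.cases ?_ (fun j => ?_) j
    · intro h
      exact absurd h (lt_irrefl _)
    · intro _
      rfl
    · intro h
      exact absurd h (Fin.not_lt_zero _)
    · intro h
      rw [bmat_succ_succ]
      exact lt_mul hl hΛ i j (Fin.succ_lt_succ_iff.mp h)
  · intro i
    refine Fin.cases ?_ (fun i => ?_) i
    · rfl
    · rw [bmat_succ_succ, lt_mul_diag hl hΛ i, hl1 i, hΛ1 i, one_mul]
  · intro i j
    refine Fin.cases ?_ (fun i => ?_) i <;> refine Fin.cases ?_ (fun j => ?_) j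
    · intro h
      exact absurd h (lt_irrefl _)
    · intro h
      exact absurd h (Fin.not_lt_zero _)
    · intro _
      rfl
    · intro h
      rw [bmat_succ_succ]
      exact ut_mul hB hb i j (Fin.succ_lt_succ_iff.mp h)
  · rfl
  · intro i
    rw [bmat_succ_succ, ut_mul_diag hB hb i, hBd i]
  · rw [bmat_mul, bmat_mul]
    have e1 : a * b + ((ξ ᵥ* b') ᵥ* Li) ⬝ᵥ (Ui *ᵥ (l' *ᵥ η))
        = 1 * (s 0 : R) + (0 : Fin k → R) ⬝ᵥ (0 : Fin k → R) := by
      rw [hdot]
      simp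
    have e2 : a • (0 : Fin k → R) + ((ξ ᵥ* b') ᵥ* Li) ᵥ* L'
        = (1 : R) • (ξ ᵥ* b') + (0 : Fin k → R) ᵥ* (Bq * b') := by
      rw [Matrix.vecMul_vecMul, hLi', Matrix.vecMul_one]
      simp
    have e3 : b • (0 : Fin k → R) + U' *ᵥ (Ui *ᵥ (l' *ᵥ η))
        = (s 0 : R) • ((((s 0)⁻¹ : Rˣ) : R) • (l' *ᵥ η)) + (l' * Λ) *ᵥ (0 : Fin k → R) := by
      rw [Matrix.mulVec_mulVec, hUi, Matrix.one_mulVec, smul_smul, Units.mul_inv]
      simp
    have e4 : vecMulVec (0 : Fin k → R) (0 : Fin k → R) + U' * L'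
        = vecMulVec ((((s 0)⁻¹ : Rˣ) : R) • (l' *ᵥ η)) (ξ ᵥ* b') + l' * Λ * (Bq * b') := by
      have hv : vecMulVec ((((s 0)⁻¹ : Rˣ) : R) • (l' *ᵥ η)) (ξ ᵥ* b')
          = l' * ((((s 0)⁻¹ : Rˣ) : R) • vecMulVec η ξ) * b' := by
        rw [Matrix.mul_smul, Matrix.smul_mul, Matrix.mul_vecMulVec, Matrix.vecMulVec_mul,
          Matrix.smul_vecMulVec]
      have hm : l' * Λ * (Bq * b')
          = l' * (1 - (((s 0)⁻¹ : Rˣ) : R) • vecMulVec η ξ) * b' := by
        rw [← hprod]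
        simp only [Matrix.mul_assoc]
      rw [hv, hm, hq, ← Matrix.add_mul, ← Matrix.mul_add, add_sub_cancel, Matrix.mul_one]
      simp
    rw [e1, e2, e3, e4]

end Vale.Agent.Lib.P002.H17
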